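import Vale.Agent.N173.Ext

/-! The extension of a group by the free group on a set with an action. -/

set_option linter.all false

namespace Vale.Agent.N173

open CategoryTheory Vale.Agent.P173 Vale.Agent.P173G MulAction SemidirectProduct
open Vale.Agent.P173FR (fa fa_of)

universe u v

/-- The free group on `Y` extended by `G`. -/
abbrev Wr (G Y : Type) [Group G] [MulAction G Y] : Type := FreeGroup Y ⋊[fa G Y] G

/-- Pairs of a word and a point. -/
@[ext] structure Pr (Y Z : Type) where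
  w : FreeGroup Y
  z : Z

variable {G Y : Type} [Group G] [MulAction G Y]

instance (Z : Type) [MulAction G Z] : MulAction (Wr G Y) (Pr Y Z) where
  smul k c := ⟨k.left * fa G Y k.right c.w, k.right • c.z⟩
  one_smul c := Pr.ext (by
    show (1 : Wr G Y).left * fa G Y (1 : Wr G Y).right c.w = c.w
    rw [one_left, one_right, map_one, one_mul]; rfl) (one_smul G c.z)
  mul_smul k k' c := Pr.ext (by
    show (k * k').left * fa G Y (k * k').right c.w =
      k.left * fa G Y k.right (k'.left * fa G Y k'.right c.w)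
    rw [mul_left, mul_right, map_mul, map_mul, mul_assoc]; rfl) (mul_smul k.right k'.right c.z)

theorem eq_one_of_fix {Z : Type} [MulAction G Z] {k : Wr G Y} {c : Pr Y Z} (h : k • c = c)
    (h1 : k.right = 1) : k = 1 := by
  have h2 : k.left * fa G Y k.right c.w = c.w := congrArg Pr.w h
  rw [h1, map_one, MulAut.one_apply, mul_eq_right] at h2
  exact SemidirectProduct.ext h2 h1

/-- Copies of a tree, joined along the Cayley tree of the free group. -/
def blow (T : GT G) (p : Y → T.V) (hp : ∀ (g : G) y, p (g • y) = g • p y) : GT (Wr G Y) where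
  V := Pr Y T.V
  E := Pr Y (T.E ⊕ Y)
  s c := ⟨c.w, Sum.elim T.s p c.z⟩
  t c := ⟨c.w * Sum.elim (fun _ => 1) FreeGroup.of c.z, Sum.elim T.t p c.z⟩
  s_smul k := by
    rintro ⟨w, e | y⟩
    · exact Pr.ext rfl (T.s_smul _ e)
    · exact Pr.ext rfl (hp _ y)
  t_smul k := by
    rintro ⟨w, e | y⟩
    · refine Pr.ext ?_ (T.t_smul _ e)
      show k.left * fa G Y k.right w * 1 = k.left * fa G Y k.right (w * 1)
      rw [mul_one, mul_one]
    · refine Pr.ext ?_ (hp _ y)
      show k.left * fa G Y k.right w * FreeGroup.of (k.right • y) =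
        k.left * fa G Y k.right (w * FreeGroup.of y)
      rw [map_mul, fa_of, mul_assoc]
  r := ⟨1, T.r⟩
  conn P h0 h := by
    have h1 : ∀ w v, P ⟨w, T.r⟩ ↔ P ⟨w, v⟩ := fun w => T.conn (fun v => P ⟨w, T.r⟩ ↔ P ⟨w, v⟩)
      Iff.rfl fun e => by
        have h2 : P ⟨w, T.s e⟩ ↔ P ⟨w * 1, T.t e⟩ := h ⟨w, Sum.inl e⟩
        rw [mul_one] at h2
        rw [h2]
    rintro ⟨w, v⟩
    refine (h1 w v).1 (free_ind (fun w => P ⟨w, T.r⟩) h0 (fun w y => ?_) w)
    rw [h1 w (p y), h1 _ (p y)]
    exact h ⟨w, Sum.inr y⟩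
  acyc := by
    classical
    rintro ⟨u, e | y0⟩
    · obtain ⟨ψ, h1, h2⟩ := T.acyc e
      obtain ⟨U, hU⟩ := free_pot fun y w => (if w = u then ψ (p y) else 0) -
        (if w * FreeGroup.of y = u then ψ (p y) else 0)
      refine ⟨fun c => U c.w + if c.w = u then ψ c.z else 0, ?_, ?_⟩
      · simpa using h1
      · rintro ⟨w, e' | y⟩ he
        · by_cases hw : w = u
          · subst hw
            simpa using h2 e' fun h => he (by rw [h])
          · simp [hw]
        · simp only [Sum.elim_inr, hU]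
          by_cases h3 : w = u <;> by_cases h4 : w * FreeGroup.of y = u <;> simp [h3, h4]
    · obtain ⟨U, hU⟩ := free_pot fun y w => if w = u ∧ y = y0 then 1 else 0
      refine ⟨fun c => U c.w, ?_, ?_⟩
      · simp [hU]
      · rintro ⟨w, e' | y⟩ he
        · simp
        · simp only [Sum.elim_inr, hU]
          rw [if_neg, add_zero]
          rintro ⟨rfl, rfl⟩
          exact he rfl

/-- The tree with one vertex. -/
def point (G : Type) [Group G] : GT G where
  V := Unit
  E := Empty
  aV := { smul := fun _ v => v, one_smul := fun _ => rfl, mul_smul := fun _ _ _ => rfl }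
  aE := { smul := fun _ v => v, one_smul := fun _ => rfl, mul_smul := fun _ _ _ => rfl }
  s := Empty.elim
  t := Empty.elim
  s_smul _ e := e.elim
  t_smul _ e := e.elim
  r := ()
  conn _ h _ _ := h
  acyc e := e.elim

theorem cd_stab_pr {Z : Type} [MulAction G Z] (c : Pr Y Z) {n : ℕ}
    (h : CdLE (stabilizer G c.z) n) : CdLE (stabilizer (Wr G Y) c) n := by
  refine h.of_inj ((rightHom.comp (stabilizer (Wr G Y) c).subtype).codRestrict _
    fun k => congrArg Pr.z k.2) ((injective_iff_map_eq_one _).2 fun k hk => ?_)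
  exact Subtype.ext (eq_one_of_fix k.2 (congrArg Subtype.val hk))

theorem cd_wr {n : ℕ} (hG : CdLE G (n + 1)) (hY : ∀ y : Y, CdLE (stabilizer G y) n) :
    CdLE (Wr G Y) (n + 1) := by
  refine tree_cd (blow (point G) (fun _ : Y => ()) fun _ _ => rfl) n
    (fun c => cd_stab_pr c (hG.of_inj (Subgroup.subtype _) Subtype.val_injective)) ?_
  rintro ⟨w, e | y⟩
  · exact e.elim
  · exact cd_stab_pr _ (cd_stab_le (hY y) fun g hg => Sum.inr_injective hg)

/-- The action on the product of three trees is free. -/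
def Free3 (T0 T1 T2 : GT G) : Prop := ∀ (g : G) (v0 : T0.V) (v1 : T1.V) (v2 : T2.V),
  g • v0 = v0 → g • v1 = v1 → g • v2 = v2 → g = 1

theorem Free3.swap {T0 T1 T2 : GT G} (h : Free3 T0 T1 T2) : Free3 T1 T0 T2 :=
  fun g v0 v1 v2 h0 h1 h2 => h g v1 v0 v2 h1 h0 h2

theorem Free3.blow {T0 T1 T2 : GT G} (h : Free3 T0 T1 T2) (p : Y → T0.V)
    (hp : ∀ (g : G) y, p (g • y) = g • p y) :
    Free3 (blow T0 p hp) (T1.comap rightHom) (T2.comap rightHom) :=
  fun k c v1 v2 h0 h1 h2 => eq_one_of_fix h0 (h k.right c.z v1 v2 (congrArg Pr.z h0) h1 h2)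

theorem Free3.gdLE {T0 T1 T2 : GT G} (h : Free3 T0 T1 T2) : GdLE.{u, v} G 3 :=
  Free.gdLE (ι := Option Bool) (T := fun o => match o with
    | none => T0
    | some false => T1
    | some true => T2) fun g w hw =>
      h g (w none) (w (some false)) (w (some true)) (hw none) (hw (some false)) (hw (some true))

theorem free3_of {T : Fin 3 → GT G} (h : Free T) : Free3 (T 0) (T 1) (T 2) :=
  fun g v0 v1 v2 h0 h1 h2 => h g (Fin.cons v0 (Fin.cons v1 (Fin.cons v2 finZeroElim))) fun c => by
    fin_cases c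
    exacts [h0, h1, h2]

theorem countable_of_fg (h : Group.FG G) : Countable G := by
  obtain ⟨S, h1, h2⟩ := Group.fg_iff.1 h
  have := h2.to_subtype
  have h3 : (FreeGroup.lift (Subtype.val : S → G)).range = ⊤ := by
    rw [FreeGroup.range_lift_eq_closure, Subtype.range_val, h1]
  exact (MonoidHom.range_eq_top.1 h3).countable

theorem fg_wr (h : Group.FG G) (S : Set Y) (hS : S.Finite) (hY : ∀ y, ∃ g : G, ∃ s ∈ S, g • s = y) :
    Group.FG (Wr G Y) := by
  obtain ⟨S', h1, h2⟩ := Group.fg_iff.1 h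
  refine Group.fg_iff.2 ⟨inr '' S' ∪ (fun y => inl (FreeGroup.of y)) '' S, ?_,
    (h2.image _).union (hS.image _)⟩
  generalize hK : Subgroup.closure (inr '' S' ∪ (fun y => inl (FreeGroup.of y)) '' S :
    Set (Wr G Y)) = K
  have h3 : ∀ g : G, (inr g : Wr G Y) ∈ K := fun g => by
    have h4 : Subgroup.closure S' ≤ K.comap inr := (Subgroup.closure_le _).2 fun x hx =>
      hK ▸ Subgroup.subset_closure (Or.inl ⟨x, hx, rfl⟩)
    exact h4 (h1 ▸ Subgroup.mem_top g)
  have h5 : ∀ w : FreeGroup Y, (inl w : Wr G Y) ∈ K := fun w => by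
    induction w using FreeGroup.induction_on with
    | C1 => rw [map_one]; exact K.one_mem
    | of y =>
      obtain ⟨g, s, hs, rfl⟩ := hY y
      rw [← fa_of, inl_aut]
      exact K.mul_mem (K.mul_mem (h3 _) (hK ▸ Subgroup.subset_closure (Or.inr ⟨s, hs, rfl⟩))) (h3 _)
    | inv_of y ih => rw [map_inv]; exact K.inv_mem ih
    | mul a b ha hb => rw [map_mul]; exact K.mul_mem ha hb
  refine (Subgroup.eq_top_iff' K).2 fun k => ?_
  rw [← inl_left_mul_inr_right k]
  exact K.mul_mem (h5 _) (h3 _)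

theorem commute_iff (A : Subgroup G) (x : G) :
    Commute (inr x : Wr G (G ⧸ A)) (inl (FreeGroup.of ((1 : G) : G ⧸ A))) ↔ x ∈ A := by
  rw [Commute, SemiconjBy, ← mul_inv_eq_iff_eq_mul, ← map_inv, ← inl_aut, inl_inj, fa_of,
    FreeGroup.of_injective.eq_iff, eq_comm]
  show ((1 : G) : G ⧸ A) = (x * 1 : G) ↔ _
  rw [QuotientGroup.eq, inv_one, one_mul, mul_one]

end Vale.Agent.N173
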