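import Vale.Agent.N173.Perm
import Mathlib.GroupTheory.HNNExtension
import Mathlib.Algebra.Group.MinimalAxioms
import Mathlib.SetTheory.Cardinal.Free

/-! Free groups, free products and HNN extensions act on trees. -/

set_option linter.all false

namespace Vale.Agent.N173

open CategoryTheory Vale.Agent.P173 Vale.Agent.P173G MulAction Monoid

theorem CdLE.mono {G : Type} [Group G] {m n : ℕ} (h : CdLE G m) (hmn : m ≤ n) : CdLE G n := by
  induction hmn with
  | refl => exact h
  | step _ ih => exact ih.succ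

/-- Right translations twisted by a function. -/
@[ext] structure Cz (W : Type) where
  w : W
  b : W → ℤ

variable {W : Type} [Group W]

instance : Mul (Cz W) := ⟨fun p q => ⟨p.w * q.w, fun x => p.b x + q.b (x * p.w)⟩⟩
instance : One (Cz W) := ⟨⟨1, fun _ => 0⟩⟩
instance : Inv (Cz W) := ⟨fun p => ⟨p.w⁻¹, fun x => - p.b (x * p.w⁻¹)⟩⟩

theorem Cz.mul_w (p q : Cz W) : (p * q).w = p.w * q.w := rfl
theorem Cz.mul_b (p q : Cz W) (x : W) : (p * q).b x = p.b x + q.b (x * p.w) := rfl

instance : Group (Cz W) := Group.ofLeftAxioms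
  (fun p q r => Cz.ext (mul_assoc _ _ _) (funext fun x => by
    simp only [Cz.mul_b, Cz.mul_w, add_assoc, mul_assoc]))
  (fun p => Cz.ext (one_mul _) (funext fun x => by
    show 0 + p.b (x * 1) = p.b x
    rw [zero_add, mul_one]))
  (fun p => Cz.ext (inv_mul_cancel _) (funext fun x => neg_add_cancel _))

/-- The projection. -/
def Cz.fst : Cz W →* W := MonoidHom.mk' Cz.w fun _ _ => rfl

/-- Coboundaries. -/
def cob {G : Type} [Group G] (ι : G →* W) (f : W → ℤ) : G →* Cz W :=
  MonoidHom.mk' (fun g => ⟨ι g, fun x => f x - f (x * ι g)⟩) fun g h => Cz.ext (map_mul ι g h)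
    (funext fun x => by simp only [Cz.mul_b, map_mul, mul_assoc, sub_add_sub_cancel])

theorem pot_of (s : W →* Cz W) (hs : Cz.fst.comp s = MonoidHom.id W) (w w' : W) :
    (s (w * w')).b 1 = (s w).b 1 + (s w').b w := by
  rw [map_mul, Cz.mul_b, one_mul, show (s w).w = w from DFunLike.congr_fun hs w]

theorem free_pot {Y : Type} (ν : Y → FreeGroup Y → ℤ) :
    ∃ U : FreeGroup Y → ℤ, ∀ y w, U (w * FreeGroup.of y) = U w + ν y w :=
  ⟨fun w => (FreeGroup.lift (fun y => (⟨FreeGroup.of y, ν y⟩ : Cz (FreeGroup Y))) w).b 1,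
    fun y w => by
      beta_reduce
      rw [pot_of _ (FreeGroup.ext_hom _ _ fun y => by simp [Cz.fst]), FreeGroup.lift_apply_of]⟩

theorem free_ind {Y : Type} (P : FreeGroup Y → Prop) (h1 : P 1)
    (h : ∀ w y, P w ↔ P (w * FreeGroup.of y)) (w : FreeGroup Y) : P w := by
  have : ∀ u w, P w ↔ P (w * u) := fun u => by
    induction u using FreeGroup.induction_on with
    | C1 => exact fun w => by rw [mul_one]
    | of y => exact fun w => h w y
    | inv_of y ih => exact fun w => by rw [ih (w * _), inv_mul_cancel_right]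
    | mul u v hu hv => exact fun w => by rw [← mul_assoc, ← hv, ← hu]
  simpa using (this w 1).1 h1

/-- The Cayley tree of a free group. -/
def cayley (Y : Type) : GT (FreeGroup Y) where
  V := FreeGroup Y
  E := Σ _ : Y, FreeGroup Y
  s e := e.2
  t e := e.2 * FreeGroup.of e.1
  s_smul g := by
    rintro ⟨y, w⟩
    rfl
  t_smul g := by
    rintro ⟨y, w⟩
    exact mul_assoc g w _
  r := 1
  conn P h0 h := free_ind P h0 fun w y => h ⟨y, w⟩
  acyc e := by
    classical
    obtain ⟨U, hU⟩ := free_pot fun y w => if (⟨y, w⟩ : Σ _ : Y, FreeGroup Y) = e then 1 else 0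
    refine ⟨U, ?_, fun e' he => ?_⟩
    · rw [hU, if_pos rfl]
      omega
    · rw [hU, if_neg he, add_zero]

theorem cd_free (Y : Type) : CdLE (FreeGroup Y) 1 :=
  tree_cd (cayley Y) 0
    (fun (v : FreeGroup Y) => CdLE.succ (cd_zero fun g : stabilizer (FreeGroup Y) v =>
      Subtype.ext (mul_eq_right.1 (show g.1 * v = v from g.2))))
    fun ⟨y, w⟩ => cd_zero fun g => Subtype.ext (mul_eq_right.1
      (congrArg (fun s : Σ _ : Y, FreeGroup Y => s.2) g.2))

section Coprod

variable (G H : Type) [Group G] [Group H]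

/-- The tree of a free product. -/
def coprodTree : GT (Coprod G H) where
  V := (Coprod G H ⧸ (Coprod.inl : G →* Coprod G H).range) ⊕
    (Coprod G H ⧸ (Coprod.inr : H →* Coprod G H).range)
  E := Coprod G H
  s w := Sum.inl w
  t w := Sum.inr w
  s_smul g w := rfl
  t_smul g w := rfl
  r := Sum.inl (1 : Coprod G H)
  conn P h0 h := by
    have h1 : ∀ u w : Coprod G H, P (Sum.inl w) ↔ P (Sum.inl (w * u : Coprod G H)) := fun u => by
      induction u using Coprod.induction_on with
      | inl g => exact fun w => by rw [QuotientGroup.mk_mul_of_mem w (MonoidHom.mem_range.2 ⟨g, rfl⟩)]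
      | inr g =>
        exact fun w => by rw [h, h, QuotientGroup.mk_mul_of_mem w (MonoidHom.mem_range.2 ⟨g, rfl⟩)]
      | mul u v hu hv => exact fun w => by rw [← mul_assoc, ← hv, ← hu]
    have h2 : ∀ w : Coprod G H, P (Sum.inl w) := fun w => by simpa using (h1 w 1).1 h0
    rintro (q | q)
    · obtain ⟨w, rfl⟩ := QuotientGroup.mk_surjective q
      exact h2 w
    · obtain ⟨w, rfl⟩ := QuotientGroup.mk_surjective q
      exact (h w).1 (h2 w)
  acyc e := by
    classical
    let f : Coprod G H → ℤ := fun w => if w = e then 1 else 0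
    let s : Coprod G H →* Cz (Coprod G H) := Coprod.lift (cob Coprod.inl 0) (cob Coprod.inr f)
    have hs := pot_of s (Coprod.hom_ext rfl rfl)
    refine ⟨Sum.elim (Quotient.lift (fun w => (s w).b 1) fun w w' h => ?_)
      (Quotient.lift (fun w => (s w).b 1 + f w) fun w w' h => ?_), ?_, fun e' he => ?_⟩
    · obtain ⟨g, hg⟩ := QuotientGroup.leftRel_apply.1 h
      rw [← mul_inv_cancel_left w w', ← hg, hs]
      exact (add_zero _).symm
    · obtain ⟨g, hg⟩ := QuotientGroup.leftRel_apply.1 h
      rw [← mul_inv_cancel_left w w', ← hg, hs]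
      show _ = _ + (f w - f (w * Coprod.inr g)) + _
      ring
    · show (s e).b 1 ≠ (s e).b 1 + f e
      simp [f]
    · show (s e').b 1 = (s e').b 1 + f e'
      simp [f, he]

variable {G H} in
theorem cd_coprod {n : ℕ} (hG : CdLE G (n + 1)) (hH : CdLE H (n + 1)) :
    CdLE (Coprod G H) (n + 1) := by
  refine tree_cd (coprodTree G H) n ?_ fun (e : Coprod G H) => ?_
  · rintro (q | q)
    · exact cd_stab_le (cd_stab_quot _ (cd_range hG _ Coprod.inl_injective) q)
        fun g hg => Sum.inl_injective hg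
    · exact cd_stab_le (cd_stab_quot _ (cd_range hH _ Coprod.inr_injective) q)
        fun g hg => Sum.inr_injective hg
  · exact (cd_zero fun g : stabilizer (Coprod G H) e =>
      Subtype.ext (mul_eq_right.1 (show g.1 * e = e from g.2))).mono (Nat.zero_le n)

end Coprod

theorem cd_hnn {G : Type} [Group G] {A B : Subgroup G} (φ : A ≃* B) {n : ℕ}
    (hG : CdLE G (n + 1)) (hB : CdLE B n) : CdLE (HNNExtension G A B φ) (n + 1) := by
  let o : G →* HNNExtension G A B φ := HNNExtension.of
  have ho : Function.Injective o := HNNExtension.of_injective φ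
  refine tree_cd (hnn (J := Unit) o.range (fun _ => (o.comp B.subtype).range)
    (fun _ => HNNExtension.t) ?_ ?_ ?_ ?_) n (cd_stab_quot _ (cd_range hG o ho)) ?_
  · rintro j _ ⟨b, rfl⟩
    exact ⟨b, rfl⟩
  · rintro j _ ⟨b, rfl⟩
    exact ⟨_, HNNExtension.equiv_symm_eq_conj b⟩
  · intro K h1 h2 g
    induction g using HNNExtension.induction_on with
    | of g => exact h1 ⟨g, rfl⟩
    | t => exact h2 ()
    | mul x y hx hy => exact K.mul_mem hx hy
    | inv x hx => exact K.inv_mem hx
  · intro f hf
    let s : HNNExtension G A B φ →* Cz (HNNExtension G A B φ) :=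
      HNNExtension.lift (cob o 0) ⟨HNNExtension.t, f ()⟩ fun a =>
        Cz.ext (HNNExtension.t_mul_of a) (funext fun x => by
          show f () x + (0 - 0) = (0 - 0) + f () (x * o (φ a))
          rw [hf () x (o (φ a)) ⟨φ a, rfl⟩, add_comm])
    have h1 : ∀ g, s (o g) = cob o 0 g := fun g => HNNExtension.lift_of _ _ _ g
    have h2 : s HNNExtension.t = ⟨HNNExtension.t, f ()⟩ := HNNExtension.lift_t _ _ _
    have hs := pot_of s (HNNExtension.hom_ext (MonoidHom.ext fun g => congrArg Cz.w (h1 g))
      (congrArg Cz.w h2))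
    refine ⟨fun w => (s w).b 1, ?_, fun j g => by beta_reduce; rw [hs, h2]⟩
    rintro g _ ⟨a, rfl⟩
    beta_reduce
    rw [hs, h1]
    exact add_zero _
  · rintro ⟨j, q⟩
    exact cd_stab_le (cd_stab_quot _ (cd_range hB _ (ho.comp Subtype.val_injective)) q)
      fun g hg => congrArg (fun e : Σ _ : Unit, HNNExtension G A B φ ⧸ (o.comp B.subtype).range =>
        e.2) hg

end Vale.Agent.N173
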