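import Vale.Agent.N173.Blow
import Mathlib.Analysis.Real.Cardinality

/-! Many groups of cohomological dimension two and geometric dimension three. -/

set_option linter.all false

namespace Vale.Agent.N173

open CategoryTheory Vale.Agent.P173 Vale.Agent.P173F Vale.Agent.P173G MulAction SemidirectProduct
open Vale.Agent.P173FR (fa fa_of)
open Monoid
open FreeGroup (of lift_apply_of)

universe u v

/-- The properties of the counterexample that are used. -/
structure Base (Γ : Type) [Group Γ] : Prop where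
  fg : Group.FG Γ
  le : CdLE Γ 2
  ge : ¬ CdLE Γ 1
  gd : ∀ (H : Type) [Group H] (f : Γ →* H), Function.Injective f → ¬ GdLE.{u, v} H 2
  tri : ∃ T0 T1 T2 : GT Γ, Free3 T0 T1 T2

theorem base : Base.{u, v} LL.GG := by
  have h := LL.main.{u, v} LL_tr.some LL_conn LL_cofin LL_locFin LL_h1 (LL.cubeRet LL_ret) LL_loc
  obtain ⟨T0, T1, T2, h1⟩ : ∃ T0 T1 T2 : GT LL.Hat, Free3 T0 T1 T2 := ⟨_, _, _, free3_of
    (free LL (fun w => match w with | .v0 q _ => q | .v1 q _ _ => q | .v2 q _ => q)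
      (fun q w => by cases w <;> rfl))⟩
  exact ⟨h.1, (projectiveDimension_le_iff _ 2).1 h.2.2.1.le,
    (projectiveDimension_ge_iff _ 2).1 h.2.2.1.ge, h.2.2.2.2.2,
    T0.comap LL.GG.subtype, T1.comap LL.GG.subtype, T2.comap LL.GG.subtype,
    fun g v0 v1 v2 h0 h2 h3 => Subtype.ext (h1 g.1 v0 v1 v2 h0 h2 h3)⟩

theorem cdLE_of {G : Type} [Group G] (h : cd G ≤ 2) : CdLE G 2 :=
  (projectiveDimension_le_iff _ 2).1 (cd_eq G ▸ WithBot.coe_le_coe.2 h)

variable {Γ : Type} [Group Γ]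

theorem Base.over (h : Base.{u, v} Γ) {H : Type} [Group H] (f : Γ →* H)
    (hf : Function.Injective f) (hH : CdLE H 2) : cd H = 2 ∧ 3 ≤ P173G.gd.{u, v} H :=
  ⟨P173G.cd_eq_two (pd_eq_two _ hH fun h1 => h.ge (CdLE.of_inj h1 f hf)), three_le_gd (h.gd H f hf)⟩

theorem Base.exact (h : Base.{u, v} Γ) {H : Type} [Group H] (f : Γ →* H)
    (hf : Function.Injective f) (hH : CdLE H 2) {T0 T1 T2 : GT H} (hT : Free3 T0 T1 T2) :
    cd H = 2 ∧ P173G.gd.{u, v} H = 3 :=
  ⟨(h.over f hf hH).1, le_antisymm (gd_le hT.gdLE) (h.over f hf hH).2⟩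

/-- The free product with a free group, as a semidirect product. -/
abbrev W1 (Γ J : Type) [Group Γ] : Type := Wr Γ (Σ _ : J, Γ)

theorem cd_W1 (h : CdLE Γ 2) (J : Type) : CdLE (W1 Γ J) 2 :=
  cd_wr h fun ⟨j, w⟩ => CdLE.succ (cd_zero fun g => Subtype.ext (mul_eq_right.1
    (show g.1 * w = w from congrArg (fun s : Σ _ : J, Γ => s.2) g.2)))

theorem free_W1 {T0 T1 T2 : GT Γ} (h : Free3 T0 T1 T2) (J : Type) : ∃ T : GT (W1 Γ J),
    Free3 T (T1.comap rightHom) (T2.comap rightHom) :=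
  ⟨_, h.blow (fun y : Σ _ : J, Γ => y.2 • T0.r) fun g ⟨j, w⟩ => mul_smul g w _⟩

theorem Base.card (h : Base.{u, v} Γ) (κ : Cardinal.{0}) (hκ : Cardinal.aleph0 ≤ κ) :
    ∃ (H : Type) (_ : Group H), Cardinal.mk H = κ ∧ cd H = 2 ∧ P173G.gd.{u, v} H = 3 := by
  obtain ⟨J, rfl⟩ := Quot.exists_rep κ
  change Cardinal.aleph0 ≤ Cardinal.mk J at hκ
  obtain ⟨T0, T1, T2, hT⟩ := h.tri
  obtain ⟨T, hT'⟩ := free_W1 hT J
  refine ⟨W1 Γ J, inferInstance, ?_, h.exact inr inr_injective (cd_W1 h.le J) hT'⟩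
  have := countable_of_fg h.fg
  have hJ : Nonempty J := Cardinal.mk_ne_zero_iff.1 (Cardinal.aleph0_pos.trans_le hκ).ne'
  have hJ' : Nonempty (Σ _ : J, Γ) := ⟨⟨hJ.some, 1⟩⟩
  have h1 : Cardinal.mk J * Cardinal.mk Γ = Cardinal.mk J :=
    Cardinal.mul_eq_left hκ (Cardinal.mk_le_aleph0.trans hκ) (Cardinal.mk_ne_zero _)
  have h2 : Cardinal.mk (Σ _ : J, Γ) = Cardinal.mk J := by
    rw [Cardinal.mk_congr (Equiv.sigmaEquivProd J Γ), Cardinal.mk_prod, Cardinal.lift_id,
      Cardinal.lift_id, h1]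
  show _ = Cardinal.mk J
  rw [Cardinal.mk_congr SemidirectProduct.equivProd, Cardinal.mk_prod, Cardinal.lift_id,
    Cardinal.lift_id, Cardinal.mk_freeGroup, h2, max_eq_left hκ, h1]

/-- The conjugates of one generator by the powers of another one. -/
def conjHom {Y : Type} (a b : Y) : FreeGroup ℕ →* FreeGroup Y :=
  FreeGroup.lift fun i => of b ^ i * of a * (of b ^ i)⁻¹

theorem conjHom_injective {Y : Type} {a b : Y} (hab : a ≠ b) :
    Function.Injective (conjHom a b) := by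
  classical
  let ψ : FreeGroup Y →* Wr (Multiplicative ℤ) (Multiplicative ℤ) :=
    FreeGroup.lift fun y => if y = a then inl (of 1) else inr (Multiplicative.ofAdd 1)
  have h1 : ψ.comp (conjHom a b) =
      inl.comp (FreeGroup.map fun i : ℕ => Multiplicative.ofAdd (i : ℤ)) :=
    FreeGroup.ext_hom _ _ fun i => by
      simp only [MonoidHom.comp_apply, conjHom, ψ, lift_apply_of, map_mul, map_inv, map_pow,
        if_pos, if_neg hab.symm, FreeGroup.map.of]
      rw [← map_pow, ← map_inv, ← inl_aut, fa_of, smul_eq_mul, mul_one, ← ofAdd_nsmul]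
      simp
  refine Function.Injective.of_comp (f := ψ) ?_
  rw [← MonoidHom.coe_comp, h1, MonoidHom.coe_comp]
  exact inl_injective.comp (FreeGroup.map_injective
    (Multiplicative.ofAdd.injective.comp Nat.cast_injective))

theorem of_mem_closure (S : Set ℕ) (i : ℕ) :
    of i ∈ Subgroup.closure (of '' S : Set (FreeGroup ℕ)) ↔ i ∈ S := by
  refine ⟨fun h => by_contra fun hi => ?_, fun h => Subgroup.subset_closure ⟨i, h, rfl⟩⟩
  have h1 : Subgroup.closure (of '' S : Set (FreeGroup ℕ)) ≤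
      (FreeGroup.lift fun j => if j = i then Multiplicative.ofAdd (1 : ℤ) else 1).ker :=
    (Subgroup.closure_le _).2 (by
      rintro _ ⟨j, hj, rfl⟩
      have : j ≠ i := fun e => hi (e ▸ hj)
      simp [this])
  simpa using h1 h

/-- The subgroup that encodes a set of numbers. -/
def AS (Γ : Type) [Group Γ] (S : Set ℕ) : Subgroup (W1 Γ Bool) :=
  (Subgroup.closure (of '' S)).map
    (inl.comp (conjHom (⟨false, 1⟩ : Σ _ : Bool, Γ) ⟨true, 1⟩))

theorem AS_le (S : Set ℕ) : AS Γ S ≤ (inl : _ →* W1 Γ Bool).range := by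
  rintro _ ⟨w, -, rfl⟩
  exact ⟨_, rfl⟩

/-- The group that encodes a set of numbers. -/
abbrev WS (Γ : Type) [Group Γ] (S : Set ℕ) : Type := Wr (W1 Γ Bool) (W1 Γ Bool ⧸ AS Γ S)

theorem Base.ws (h : Base.{u, v} Γ) (S : Set ℕ) :
    Group.FG (WS Γ S) ∧ cd (WS Γ S) = 2 ∧ P173G.gd.{u, v} (WS Γ S) = 3 := by
  obtain ⟨T0, T1, T2, hT⟩ := h.tri
  obtain ⟨T, hT'⟩ := free_W1 hT Bool
  refine ⟨fg_wr (fg_wr h.fg (Set.range fun j => ⟨j, 1⟩) (Set.finite_range _)
    fun ⟨j, w⟩ => ⟨w, _, ⟨j, rfl⟩, congrArg (Sigma.mk j) (mul_one w)⟩) {QuotientGroup.mk 1}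
    (Set.finite_singleton _) fun q => ?_, h.exact (inr.comp inr) (inr_injective.comp inr_injective)
    (cd_wr (cd_W1 h.le Bool) (cd_stab_quot _ ((cd_range (cd_free _) _ inl_injective).of_inj
      (Subgroup.inclusion (AS_le S)) (Subgroup.inclusion_injective _))))
    (hT'.swap.blow (Y := W1 Γ Bool ⧸ AS Γ S) (Quotient.lift (fun w : W1 Γ Bool => (w.right • T1.r : T1.V)) fun w w' hw => ?_)
      fun g q => ?_)⟩
  · obtain ⟨w, rfl⟩ := QuotientGroup.mk_surjective q
    exact ⟨w, _, rfl, congrArg QuotientGroup.mk (mul_one w)⟩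
  · obtain ⟨n, hn⟩ := AS_le S (QuotientGroup.leftRel_apply.1 hw)
    have h1 := congrArg SemidirectProduct.right hn
    rw [right_inl, mul_right, inv_right, eq_comm, inv_mul_eq_one] at h1
    beta_reduce
    rw [h1]
  · obtain ⟨w, rfl⟩ := QuotientGroup.mk_surjective q
    exact mul_smul g.right w.right T1.r

/-- The set of numbers read from three elements of a group. -/
def decode {H : Type} [Group H] (p : H × H × H) : Set ℕ :=
  {i | Commute (p.2.1 ^ i * p.1 * (p.2.1 ^ i)⁻¹) p.2.2}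

theorem decode_ws (S : Set ℕ) : ∃ p : WS Γ S × WS Γ S × WS Γ S, decode p = S := by
  refine ⟨(inr (inl (of ⟨false, 1⟩)), inr (inl (of ⟨true, 1⟩)), inl (of ((1 : W1 Γ Bool) : _))),
    Set.ext fun i => ?_⟩
  simp only [decode, Set.mem_setOf_eq, ← map_pow, ← map_inv, ← map_mul]
  rw [commute_iff, ← of_mem_closure S i, AS, ← Subgroup.mem_map_iff_mem
    (f := (inl : _ →* W1 Γ Bool).comp (conjHom ⟨false, 1⟩ ⟨true, 1⟩)) (inl_injective.comp
      (conjHom_injective fun e => Bool.false_ne_true (congrArg Sigma.fst e)))]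
  simp [conjHom]

theorem many (G : Set ℕ → Type) [∀ S, Group (G S)] (hc : ∀ S, Countable (G S))
    (hd : ∀ S, ∃ p : G S × G S × G S, decode p = S) :
    ∃ f : ℝ → Set ℕ, ∀ r s, Nonempty (G (f r) ≃* G (f s)) → r = s := by
  let R : Setoid (Set ℕ) := ⟨fun S S' => Nonempty (G S ≃* G S'), fun _ => ⟨MulEquiv.refl _⟩,
    fun ⟨e⟩ => ⟨e.symm⟩, fun ⟨e⟩ ⟨e'⟩ => ⟨e.trans e'⟩⟩
  have h1 : Function.Surjective fun x : Σ q : Quotient R, G q.out × G q.out × G q.out =>
      decode x.2 := fun S => by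
    obtain ⟨p, hp⟩ := hd S
    obtain ⟨e⟩ : Nonempty (G (Quotient.mk R S).out ≃* G S) := Quotient.mk_out (s := R) S
    refine ⟨⟨Quotient.mk R S, e.symm p.1, e.symm p.2.1, e.symm p.2.2⟩,
      Eq.trans (Set.ext fun i => ?_) hp⟩
    simp only [decode, Set.mem_setOf_eq, ← map_pow, ← map_inv, ← map_mul, Commute, SemiconjBy,
      e.symm.apply_eq_iff_eq]
  have h2 := Cardinal.mk_le_of_surjective h1
  rw [Cardinal.mk_set_nat, Cardinal.mk_sigma] at h2
  have h3 := h2.trans ((Cardinal.sum_le_sum _ _ fun q => Cardinal.mk_le_aleph0).trans_eq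
    (Cardinal.sum_const' _ _))
  have h4 : Cardinal.mk ℝ ≤ Cardinal.mk (Quotient R) := by
    rw [Cardinal.mk_real]
    refine not_lt.1 fun h => (Cardinal.mul_lt_of_lt Cardinal.aleph0_le_continuum h
      Cardinal.aleph0_lt_continuum).not_ge h3
  obtain ⟨j⟩ := (Cardinal.le_def _ _).1 h4
  exact ⟨fun r => (j r).out, fun r s h => j.injective (Quotient.out_equiv_out.1 h)⟩

theorem two_gen {K : Type} [Group K] [Countable K] (hK : CdLE K 2) :
    ∃ (H : Type) (_ : Group H) (x y : H) (f : K →* H), Subgroup.closure {x, y} = ⊤ ∧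
      Function.Injective f ∧ CdLE H 2 := by
  obtain ⟨g0, hg0⟩ := exists_surjective_nat K
  let g : ℕ → K := fun i => Nat.casesOn i 1 g0
  let α : FreeGroup ℕ →* Coprod K (FreeGroup Bool) :=
    FreeGroup.lift fun i => Coprod.inl (g i) * Coprod.inr (conjHom true false (of i))
  let β : FreeGroup ℕ →* Coprod K (FreeGroup Bool) := Coprod.inr.comp (conjHom false true)
  have hα : Function.Injective α := by
    have h1 : Coprod.snd.comp α = conjHom true false := FreeGroup.ext_hom _ _ fun i => by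
      simp [α]
    refine Function.Injective.of_comp (f := Coprod.snd) ?_
    rw [← MonoidHom.coe_comp, h1]
    exact conjHom_injective (by decide)
  have hβ : Function.Injective β := Coprod.inr_injective.comp (conjHom_injective (by decide))
  let φ : β.range ≃* α.range := (MonoidHom.ofInjective hβ).symm.trans (MonoidHom.ofInjective hα)
  let o : _ →* HNNExtension _ _ _ φ := HNNExtension.of
  have ho : ∀ w, o (α w) = HNNExtension.t * o (β w) * HNNExtension.t⁻¹ := fun w => by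
    have h1 := HNNExtension.equiv_eq_conj (φ := φ) (MonoidHom.ofInjective hβ w)
    rwa [MulEquiv.trans_apply, MulEquiv.symm_apply_apply] at h1
  refine ⟨HNNExtension _ _ _ φ, inferInstance, o (Coprod.inr (of false)), HNNExtension.t,
    o.comp Coprod.inl, ?_, (HNNExtension.of_injective φ).comp Coprod.inl_injective,
    cd_hnn φ (cd_coprod hK (cd_free _).succ) (cd_range (cd_free _) α hα)⟩
  generalize hL : Subgroup.closure {o (Coprod.inr (of false)), HNNExtension.t} = L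
  have ha : o (Coprod.inr (of false)) ∈ L := hL ▸ Subgroup.subset_closure (Or.inl rfl)
  have ht : HNNExtension.t ∈ L := hL ▸ Subgroup.subset_closure (Or.inr rfl)
  have hb : o (Coprod.inr (of true)) ∈ L := by
    have h1 := ho (of 0)
    simp only [α, β, g, conjHom, lift_apply_of, MonoidHom.comp_apply, pow_zero, inv_one, mul_one,
      one_mul, Nat.rec_zero, map_one] at h1
    exact h1 ▸ L.mul_mem (L.mul_mem ht ha) (L.inv_mem ht)
  have hF : ∀ w, o (Coprod.inr w) ∈ L := fun w => by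
    induction w using FreeGroup.induction_on with
    | C1 => rw [map_one, map_one]; exact L.one_mem
    | of y => cases y; exacts [ha, hb]
    | inv_of y ih => rw [map_inv, map_inv]; exact L.inv_mem ih
    | mul a b ha hb => rw [map_mul, map_mul]; exact L.mul_mem ha hb
  have hK' : ∀ k, o (Coprod.inl k) ∈ L := fun k => by
    obtain ⟨i, rfl⟩ := hg0 k
    have h1 := ho (of (i + 1))
    rw [show α (of (i + 1)) = _ from lift_apply_of, map_mul, ← eq_mul_inv_iff_mul_eq] at h1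
    exact h1 ▸ L.mul_mem (L.mul_mem (L.mul_mem ht (hF _)) (L.inv_mem ht)) (L.inv_mem (hF _))
  refine (Subgroup.eq_top_iff' L).2 fun w => ?_
  induction w using HNNExtension.induction_on with
  | of w =>
    induction w using Coprod.induction_on with
    | inl k => exact hK' k
    | inr w => exact hF w
    | mul a b ha hb => rw [map_mul]; exact L.mul_mem ha hb
  | t => exact ht
  | mul x y hx hy => exact L.mul_mem hx hy
  | inv x hx => exact L.inv_mem hx

theorem main : ((¬ ∀ (Γ : Type) [Group Γ], cd Γ = 2 → gd.{u, v} Γ = 2) ∧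
      ∃ (Γ : Type) (_ : Group Γ), cd Γ = 2 ∧ gd.{u, v} Γ = 3) ∧
    (∀ κ : Cardinal.{0}, Cardinal.aleph0 ≤ κ →
      ∃ (Γ : Type) (_ : Group Γ), Cardinal.mk Γ = κ ∧ cd Γ = 2 ∧ gd.{u, v} Γ = 3) ∧
    (∃ (Γ : ℝ → Type) (_ : ∀ r, Group (Γ r)),
      (∀ r, Group.FG (Γ r) ∧ cd (Γ r) = 2 ∧ gd.{u, v} (Γ r) = 3) ∧
      ∀ r s, Nonempty (Γ r ≃* Γ s) → r = s) ∧
    (∃ (Γ : Type) (_ : Group Γ), Group.FG Γ ∧ ∀ (G : Type) [Group G], cd G ≤ 2 →
      cd (Coprod G Γ) = 2 ∧ 3 ≤ gd.{u, v} (Coprod G Γ)) ∧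
    ∀ (G : Type) [Group G] [Countable G], cd G ≤ 2 →
      ∃ (H : Type) (_ : Group H) (x y : H) (f : G →* H), Subgroup.closure {x, y} = ⊤ ∧
        Function.Injective f ∧ cd H = 2 ∧ 3 ≤ gd.{u, v} H := by
  have h := base.{u, v}
  refine ⟨⟨P173G.main.1, ?_⟩, h.card, ?_, ⟨_, _, h.fg, fun G _ hG => h.over Coprod.inr
    Coprod.inr_injective (cd_coprod (cdLE_of hG) h.le)⟩, fun G _ _ hG => ?_⟩
  · obtain ⟨Γ, _, -, h1⟩ := h.card _ le_rfl
    exact ⟨Γ, _, h1⟩
  · obtain ⟨f, hf⟩ := many (WS LL.GG) (fun S => countable_of_fg (h.ws S).1) decode_ws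
    exact ⟨fun r => WS LL.GG (f r), inferInstance, fun r => h.ws _, hf⟩
  · have := countable_of_fg h.fg
    have : Countable (Coprod G LL.GG) := Coprod.mk_surjective.countable
    obtain ⟨H, _, x, y, f, h1, h2, h3⟩ := two_gen (cd_coprod (cdLE_of hG) h.le)
    exact ⟨H, _, x, y, f.comp Coprod.inl, h1, h2.comp Coprod.inl_injective,
      h.over (f.comp Coprod.inr) (h2.comp Coprod.inr_injective) h3⟩

end Vale.Agent.N173
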