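import Vale.Agent.P173G80.Main

/-! Cohomological dimension of a group that acts on a tree. -/

set_option linter.all false

namespace Vale.Agent.N173

open CategoryTheory CategoryTheory.Limits Vale.Agent.P173 Vale.Agent.P173G MulAction

section

variable {k : Type} [CommRing k] {G : Type} [Group G]

/-- A morphism of representations from an equivariant linear map. -/
noncomputable def mkHom {A B : Rep.{0} k G} (f : A.V →ₗ[k] B.V)
    (h : ∀ g v, f (A.ρ g v) = B.ρ g (f v)) : A ⟶ B :=
  Rep.ofHom (ρ := A.ρ) (σ := B.ρ) (LinearMap.intertwiningMap_of_isIntertwiningMap _ _ f h)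

theorem mkHom_apply {A B : Rep.{0} k G} (f : A.V →ₗ[k] B.V)
    (h : ∀ g v, f (A.ρ g v) = B.ρ g (f v)) (v : A.V) : (mkHom f h).hom v = f v := rfl

theorem hom_ext' {A B : Rep.{0} k G} {f g : A ⟶ B} (h : ∀ v, f.hom v = g.hom v) : f = g :=
  Rep.hom_ext (Representation.IntertwiningMap.ext (LinearMap.ext h))

theorem res_projective {H : Type} [Group H] (f : H →* G) (hf : Function.Injective f)
    (M : Rep.{0} k G) [Projective M] : Projective (Rep.res f M) := by
  let π : permRep k G (Σ _ : M.V, G) ⟶ M := permLift M (fun p => M.ρ p.2 p.1) fun g p => by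
    obtain ⟨m, w⟩ := p
    show M.ρ (g * w) m = _
    rw [map_mul]
    rfl
  have hπ : Epi π := (Rep.epi_iff_surjective π).2 fun m =>
    ⟨Finsupp.single ⟨m, 1⟩ 1, by rw [permLift_single, map_one]; rfl⟩
  obtain ⟨σ, hσ⟩ := Projective.factors (𝟙 M) π
  letI : MulAction H (Σ _ : M.V, G) := MulAction.compHom _ f
  have hP : Projective (Rep.res f (permRep k G (Σ _ : M.V, G))) :=
    permRep_projective (k := k) (G := H) (X := Σ _ : M.V, G) fun g p h => by
      obtain ⟨m, w⟩ := p
      have h1 : f g * w = w := congrArg (fun s : Σ _ : M.V, G => s.2) h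
      exact hf ((mul_eq_right.1 h1).trans (map_one f).symm)
  exact (⟨(Rep.resFunctor f).map σ, (Rep.resFunctor f).map π, by
    rw [← CategoryTheory.Functor.map_comp, hσ, CategoryTheory.Functor.map_id]⟩ :
      Retract (Rep.res f M) (Rep.res f (permRep k G (Σ _ : M.V, G)))).projective

theorem res_pd {H : Type} [Group H] (f : H →* G) (hf : Function.Injective f) (n : ℕ)
    (M : Rep.{0} k G) (h : HasProjectiveDimensionLE M n) :
    HasProjectiveDimensionLE (Rep.res f M) n := by
  induction n generalizing M with
  | zero =>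
    have : Projective M := (projective_iff_hasProjectiveDimensionLE_zero _).2 h
    exact (projective_iff_hasProjectiveDimensionLE_zero _).1 (res_projective f hf M)
  | succ n ih =>
    obtain ⟨⟨P, p⟩⟩ := (inferInstance : EnoughProjectives (Rep.{0} k G)).1 M
    let T := ShortComplex.mk (kernel.ι p) p (kernel.condition p)
    have hT : T.ShortExact := { exact := ShortComplex.exact_kernel p }
    have hS := (Rep.shortExact_res f).2 hT
    have h1 : Projective (T.map (Rep.resFunctor f)).X₂ := res_projective f hf P
    exact (hS.hasProjectiveDimensionLT_X₃_iff n h1).2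
      (ih (kernel p) ((hT.hasProjectiveDimensionLT_X₃_iff n (by dsimp [T]; infer_instance)).1 h))

variable (X : Type) [MulAction G X]

/-- The diagonal action on finitely supported functions. -/
noncomputable def tensRho (M : Rep.{0} k G) : Representation k G (X →₀ M.V) where
  toFun g := Finsupp.lmapDomain M.V k (g • ·) ∘ₗ Finsupp.mapRange.linearMap (M.ρ g)
  map_one' := by
    ext x : 2
    simp
  map_mul' g h := by
    ext x : 2
    simp [mul_smul]

theorem tensRho_single (M : Rep.{0} k G) (g : G) (x : X) (m : M.V) :
    tensRho X M g (Finsupp.single x m) = Finsupp.single (g • x) (M.ρ g m) := by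
  simp [tensRho]

/-- The tensor product of a permutation module with a representation. -/
noncomputable abbrev tens (M : Rep.{0} k G) : Rep.{0} k G := Rep.of (tensRho X M)

variable {X} in
/-- Morphisms out of the tensor product. -/
noncomputable def tensLift {M B : Rep.{0} k G} (l : X → (M.V →ₗ[k] B.V))
    (h : ∀ g x m, l (g • x) (M.ρ g m) = B.ρ g (l x m)) : tens X M ⟶ B :=
  mkHom (Finsupp.lsum k l) fun g v => by
    induction v using Finsupp.induction_linear with
    | zero => simp
    | add a b ha hb => simp only [map_add, ha, hb]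
    | single x m =>
      show Finsupp.lsum k l (tensRho X M g _) = _
      rw [tensRho_single, Finsupp.lsum_single, Finsupp.lsum_single, h]

variable {X} in
theorem tensLift_single {M B : Rep.{0} k G} (l : X → (M.V →ₗ[k] B.V))
    (h : ∀ g x m, l (g • x) (M.ρ g m) = B.ρ g (l x m)) (x : X) (m : M.V) :
    (tensLift l h).hom (Finsupp.single x m) = l x m := Finsupp.lsum_single _ _ _ _

variable {X} in
theorem tens_ext {M B : Rep.{0} k G} {f g : tens X M ⟶ B}
    (h : ∀ x m, f.hom (Finsupp.single x m) = g.hom (Finsupp.single x m)) : f = g :=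
  Rep.hom_ext (Representation.IntertwiningMap.ext (Finsupp.lhom_ext h))

theorem tens_projective (M : Rep.{0} k G)
    (hM : ∀ x : X, Projective (Rep.res (stabilizer G x).subtype M)) : Projective (tens X M) := by
  refine ⟨fun {E B} f e he => ?_⟩
  have hsurj : Function.Surjective e.hom := (Rep.epi_iff_surjective e).1 he
  have hl : ∀ x : X, ∃ l : M.V →ₗ[k] E.V, (∀ g, g • x = x → ∀ m, l (M.ρ g m) = E.ρ g (l m)) ∧
      ∀ m, e.hom (l m) = f.hom (Finsupp.single x m) := by
    intro x
    have := hM x
    let f' : Rep.res (stabilizer G x).subtype M ⟶ Rep.res (stabilizer G x).subtype B :=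
      mkHom (f.hom.toLinearMap ∘ₗ Finsupp.lsingle x) fun g m => by
        show f.hom (Finsupp.single x (M.ρ g.1 m)) = B.ρ g.1 (f.hom (Finsupp.single x m))
        rw [← Rep.hom_comm_apply]
        congr 1
        show _ = tensRho X M g.1 _
        rw [tensRho_single, show g.1 • x = x from g.2]
    have he' : Epi ((Rep.resFunctor (stabilizer G x).subtype).map e) :=
      (Rep.epi_iff_surjective _).2 hsurj
    obtain ⟨l, hl⟩ := Projective.factors f' ((Rep.resFunctor (stabilizer G x).subtype).map e)
    exact ⟨l.hom.toLinearMap, fun g hg m => Rep.hom_comm_apply l (⟨g, hg⟩ : stabilizer G x) m,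
      fun m => congrArg (fun φ => φ.hom m) hl⟩
  choose l hl1 hl2 using hl
  let rep : X → X := fun x => (Quotient.mk (MulAction.orbitRel G X) x).out
  have hrep : ∀ x, ∃ g : G, g • rep x = x := fun x =>
    (MulAction.orbitRel G X).symm (Quotient.exact (Quotient.out_eq _))
  choose γ hγ using hrep
  have hrepg : ∀ (g : G) x, rep (g • x) = rep x := fun g x =>
    congrArg Quotient.out (Quotient.sound (MulAction.mem_orbit x g))
  refine ⟨tensLift (fun x => E.ρ (γ x) ∘ₗ l (rep x) ∘ₗ M.ρ (γ x)⁻¹) fun g x m => ?_,
    tens_ext fun x m => ?_⟩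
  · have h1 : ((γ (g • x))⁻¹ * g * γ x) • rep x = rep x := by
      rw [mul_smul, mul_smul, hγ x, inv_smul_eq_iff, ← hrepg g x, hγ]
    have h2 : M.ρ (γ (g • x))⁻¹ (M.ρ g m) =
        M.ρ ((γ (g • x))⁻¹ * g * γ x) (M.ρ (γ x)⁻¹ m) := by
      rw [← Module.End.mul_apply, ← Module.End.mul_apply, ← map_mul, ← map_mul,
        mul_inv_cancel_right]
    simp only [LinearMap.comp_apply]
    rw [hrepg, h2, hl1 _ _ h1, ← Module.End.mul_apply, ← Module.End.mul_apply (E.ρ g), ← map_mul,
      ← map_mul, mul_assoc, mul_inv_cancel_left]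
  · rw [Rep.hom_comp, Representation.IntertwiningMap.comp_apply, tensLift_single]
    simp only [LinearMap.comp_apply]
    rw [Rep.hom_comm_apply, hl2, ← Rep.hom_comm_apply]
    congr 1
    show tensRho X M _ _ = _
    rw [tensRho_single, hγ, ← Module.End.mul_apply, ← map_mul, mul_inv_cancel, map_one,
      Module.End.one_apply]

/-- Functoriality. -/
noncomputable def tensMap {M N : Rep.{0} k G} (f : M ⟶ N) : tens X M ⟶ tens X N :=
  mkHom (Finsupp.mapRange.linearMap f.hom.toLinearMap) fun g v => by
    induction v using Finsupp.induction_linear with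
    | zero => simp
    | add a b ha hb => simp only [map_add, ha, hb]
    | single x m =>
      show Finsupp.mapRange.linearMap f.hom.toLinearMap (tensRho X M g _) = tensRho X N g _
      rw [tensRho_single]
      simp only [Finsupp.mapRange.linearMap_apply, Finsupp.mapRange_single]
      rw [tensRho_single]
      exact congrArg _ (Rep.hom_comm_apply f g m)

theorem tensMap_apply {M N : Rep.{0} k G} (f : M ⟶ N) (v : X →₀ M.V) (x : X) :
    ((tensMap X f).hom v : X →₀ N.V) x = f.hom (v x) := rfl

theorem tens_pd (n : ℕ) (M : Rep.{0} k G)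
    (hM : ∀ x : X, HasProjectiveDimensionLE (Rep.res (stabilizer G x).subtype M) n) :
    HasProjectiveDimensionLE (tens X M) n := by
  induction n generalizing M with
  | zero =>
    exact (projective_iff_hasProjectiveDimensionLE_zero _).1 (tens_projective X M fun x =>
      (projective_iff_hasProjectiveDimensionLE_zero _).2 (hM x))
  | succ n ih =>
    obtain ⟨⟨P, p⟩⟩ := (inferInstance : EnoughProjectives (Rep.{0} k G)).1 M
    let T := ShortComplex.mk (kernel.ι p) p (kernel.condition p)
    have hT : T.ShortExact := { exact := ShortComplex.exact_kernel p }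
    have hP : ∀ x : X, Projective (Rep.res (stabilizer G x).subtype P) := fun x =>
      res_projective _ Subtype.val_injective P
    have hi : Function.Injective (kernel.ι p).hom := (Rep.mono_iff_injective _).1 inferInstance
    have hp : Function.Surjective p.hom := (Rep.epi_iff_surjective _).1 inferInstance
    have hex : ∀ y : P.V, p.hom y = 0 → ∃ z, (kernel.ι p).hom z = y := by
      have h1 := hT.exact
      rw [← ShortComplex.exact_map_iff_of_faithful _ (forget₂ (Rep.{0} k G) (ModuleCat.{0} k)),
        ShortComplex.moduleCat_exact_iff] at h1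
      exact h1
    have h0 : tensMap X (kernel.ι p) ≫ tensMap X p = 0 := hom_ext' fun v => Finsupp.ext fun x =>
      congrArg (fun φ => φ.hom (v x)) (kernel.condition p)
    have hm : Mono (tensMap X (kernel.ι p)) := (Rep.mono_iff_injective _).2
      (Finsupp.mapRange_injective _ (map_zero _) hi)
    have he : Epi (tensMap X p) := (Rep.epi_iff_surjective _).2
      (Finsupp.mapRange_surjective _ (map_zero _) hp)
    have hS : (ShortComplex.mk _ _ h0).ShortExact :=
      { exact := rep_exact_of _ _ h0 fun z hz => by
          choose y hy using fun x => hex (z x) (congrArg (fun v : X →₀ M.V => v x) hz)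
          refine ⟨Finsupp.onFinset z.support y fun x hx => ?_, Finsupp.ext hy⟩
          rw [Finsupp.mem_support_iff, ← hy]
          exact fun h => hx (hi (h.trans (map_zero _).symm)) }
    exact (hS.hasProjectiveDimensionLT_X₃_iff n (tens_projective X P hP)).2 (ih (kernel p)
      fun x => (((Rep.shortExact_res _).2 hT).hasProjectiveDimensionLT_X₃_iff n (hP x)).1 (hM x))

end

/-- The cohomological dimension is at most `n`. -/
abbrev CdLE (G : Type) [Group G] (n : ℕ) : Prop := HasProjectiveDimensionLE (Rep.trivial ℤ G ℤ) n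

variable {G : Type} [Group G]

theorem CdLE.of_inj {H : Type} [Group H] {n : ℕ} (h : CdLE G n) (f : H →* G)
    (hf : Function.Injective f) : CdLE H n := res_pd f hf n _ h

theorem CdLE.succ {n : ℕ} (h : CdLE G n) : CdLE G (n + 1) :=
  hasProjectiveDimensionLT_of_ge _ (n + 1) (n + 2) (by omega)

theorem triv_proj {k : Type} [CommRing k] (h : ∀ g : G, g = 1) :
    Projective (Rep.trivial k G k) := by
  refine ⟨fun {E B} f e he => ?_⟩
  obtain ⟨x, hx⟩ := (Rep.epi_iff_surjective e).1 he (f.hom (1 : k))
  refine ⟨mkHom (LinearMap.toSpanSingleton k E.V x) fun g v => by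
    rw [h g, map_one, map_one]; rfl, hom_ext' fun (v : k) => ?_⟩
  rw [Rep.hom_comp, Representation.IntertwiningMap.comp_apply, mkHom_apply,
    LinearMap.toSpanSingleton_apply, map_smul, hx, ← map_smul]
  exact congrArg _ (mul_one v)

theorem cd_zero (h : ∀ g : G, g = 1) : CdLE G 0 :=
  (projective_iff_hasProjectiveDimensionLE_zero _).1 (triv_proj h)

theorem tree_cd (T : GT G) (n : ℕ) (hV : ∀ v : T.V, CdLE (stabilizer G v) (n + 1))
    (hE : ∀ e : T.E, CdLE (stabilizer G e) n) : CdLE G (n + 1) := by
  let Z := Rep.trivial ℤ G ℤ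
  let D : tens T.E Z ⟶ tens T.V Z := tensLift
    (fun e => Finsupp.lsingle (T.t e) - Finsupp.lsingle (T.s e)) fun g e m => by
      show Finsupp.single _ m - Finsupp.single _ m =
        tensRho T.V Z g (Finsupp.single _ m - Finsupp.single _ m)
      rw [map_sub, tensRho_single, tensRho_single, T.s_smul, T.t_smul]
      rfl
  let A : tens T.V Z ⟶ Z := tensLift (fun _ => LinearMap.id) fun _ _ _ => rfl
  have hD : ∀ e (m : ℤ), D.hom (Finsupp.single e m) =
      Finsupp.single (T.t e) m - Finsupp.single (T.s e) m := fun e m => tensLift_single _ _ _ _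
  have hA : ∀ v (m : ℤ), A.hom (Finsupp.single v m) = m := fun v m => tensLift_single _ _ _ _
  have h0 : D ≫ A = 0 := tens_ext fun e m => by
    rw [Rep.hom_comp, Representation.IntertwiningMap.comp_apply, hD, map_sub, hA, hA]
    exact sub_self _
  have hm : Mono D := (Rep.mono_iff_injective _).2 ((injective_iff_map_eq_zero _).2 fun z hz => by
    ext e
    obtain ⟨φ, h1, h2⟩ := T.acyc e
    have h3 : ∀ y : T.E →₀ ℤ, Finsupp.linearCombination ℤ φ (D.hom y) =
        y e * (φ (T.t e) - φ (T.s e)) := by
      intro y
      induction y using Finsupp.induction_linear with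
      | zero => simp
      | add a b ha hb => rw [map_add, map_add, ha, hb, Finsupp.add_apply, add_mul]
      | single e' m =>
        rw [hD, map_sub, Finsupp.linearCombination_single, Finsupp.linearCombination_single]
        by_cases h : e' = e
        · rw [h, Finsupp.single_eq_same, smul_eq_mul, smul_eq_mul, mul_sub]
        · rw [h2 e' h, sub_self, Finsupp.single_eq_of_ne (Ne.symm h), zero_mul]
    have h4 := h3 z
    rw [hz, map_zero] at h4
    exact (mul_eq_zero.1 h4.symm).resolve_right (sub_ne_zero.2 h1.symm))
  have he : Epi A := (Rep.epi_iff_surjective _).2 fun m => ⟨Finsupp.single T.r m, hA _ _⟩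
  have hS : (ShortComplex.mk _ _ h0).ShortExact :=
    { exact := rep_exact_of _ _ h0 fun z hz => by
        have h1 : ∀ v (m : ℤ), ∃ y, D.hom y = Finsupp.single v m - Finsupp.single T.r m := by
          intro v m
          refine T.conn (fun v => ∃ y, D.hom y = Finsupp.single v m - Finsupp.single T.r m)
            ⟨0, by rw [map_zero, sub_self]⟩ (fun e => ⟨?_, ?_⟩) v
          · rintro ⟨y, hy⟩
            exact ⟨y + Finsupp.single e m, by rw [map_add, hy, hD]; abel⟩
          · rintro ⟨y, hy⟩
            exact ⟨y - Finsupp.single e m, by rw [map_sub, hy, hD]; abel⟩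
        have h2 : ∀ z : T.V →₀ ℤ, ∃ y, D.hom y = z - Finsupp.single T.r (A.hom z) := by
          intro z
          induction z using Finsupp.induction_linear with
          | zero => exact ⟨0, by simp⟩
          | add a b ha hb =>
            obtain ⟨y, hy⟩ := ha
            obtain ⟨y', hy'⟩ := hb
            exact ⟨y + y', by rw [map_add, hy, hy', map_add, Finsupp.single_add]; abel⟩
          | single v m => rw [hA]; exact h1 v m
        obtain ⟨y, hy⟩ := h2 z
        exact ⟨y, by rw [hy, hz, Finsupp.single_zero, sub_zero]⟩ }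
  exact hS.hasProjectiveDimensionLT_X₃ (n + 1) (tens_pd T.E n Z hE) (tens_pd T.V (n + 1) Z hV)

theorem cd_stab_le {X Y : Type} [MulAction G X] [MulAction G Y] {x : X} {y : Y} {n : ℕ}
    (h : CdLE (stabilizer G y) n) (hxy : ∀ g : G, g • x = x → g • y = y) :
    CdLE (stabilizer G x) n :=
  h.of_inj (Subgroup.inclusion fun g hg => hxy g hg) (Subgroup.inclusion_injective _)

theorem cd_stab_quot (A : Subgroup G) {n : ℕ} (h : CdLE A n) (q : G ⧸ A) :
    CdLE (stabilizer G q) n := by
  obtain ⟨w, rfl⟩ := QuotientGroup.mk_surjective q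
  refine h.of_inj (((MulAut.conj w⁻¹).toMonoidHom.comp (stabilizer G _).subtype).codRestrict A
    fun g => ?_) fun a b hab => ?_
  · have h1 : ((g.1 * w : G) : G ⧸ A) = w := g.2
    simpa [mul_assoc] using QuotientGroup.eq.1 h1.symm
  · exact Subtype.ext ((MulAut.conj w⁻¹).injective (congrArg Subtype.val hab))

theorem cd_range {H : Type} [Group H] {n : ℕ} (h : CdLE H n) (f : H →* G)
    (hf : Function.Injective f) : CdLE f.range n :=
  h.of_inj (MonoidHom.ofInjective hf).symm.toMonoidHom (MonoidHom.ofInjective hf).symm.injective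

end Vale.Agent.N173
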